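import Crest.Agent.X277.Res.FinCov
import Crest.Agent.X277.Exc.Der
import Crest.Agent.X262.Res.Main
import Crest.Agent.X262.Qt.Defs
import Crest.Agent.X262.Geo.Dv
import Crest.Agent.X277.Res.LogD
import Crest.Agent.X277.Rgr.Rig

-- ▼ part X262/R139/Loc
section

/-!
# Row 262, R1 + MODEL (helper39), part 1: localisations inside a field

* `IsLoc A O`       : `O` is a localisation of `A`;
* `IsLoc.der_mem`   : values of a derivation on a localisation;
* `exists_pt`       : Nullstellensatz, a closed point of the closure of a point;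
* `algInd_coords`   : coordinates are algebraically independent over a coefficient ring;
* `exists_sep`      : separating data for the residue field.
-/

set_option autoImplicit false

noncomputable section

namespace Crest.Agent.X262.R139

open Crest.Agent.X277 Crest.Agent.X277.Lef Crest.Agent.X277.Res.Out IsLocalRing

variable {k F : Type} [Field k] [Field F] [Algebra k F]

/-- `O` is a localisation of `A` -/
structure IsLoc (A O : Subalgebra k F) : Prop where
  le : A ≤ O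
  loc : ∀ x ∈ O, ∃ b ∈ A, Un O b ∧ b * x ∈ A

variable {A B O : Subalgebra k F}

theorem isLoc_lo (φ : A →ₐ[k] k) : IsLoc A (lo A φ) :=
  ⟨le_lo φ, fun _ ⟨b, hb, h⟩ => ⟨b, b.2, un_lo hb, h⟩⟩

theorem IsLoc.rfl : IsLoc O O := ⟨le_rfl, fun _ h => ⟨1, one_mem _, un_one, by rwa [one_mul]⟩⟩

/-- common denominators -/
theorem IsLoc.exists_den (h : IsLoc A O) {Z : Set F} (hZ : Z.Finite) (hO : ∀ z ∈ Z, z ∈ O) :
    ∃ b ∈ A, Un O b ∧ ∀ z ∈ Z, b * z ∈ A := by
  induction Z, hZ using Set.Finite.induction_on with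
  | empty => exact ⟨1, one_mem _, un_one, by simp⟩
  | @insert z Z _ _ ih =>
    obtain ⟨b, h1, h2, h3⟩ := ih fun y hy => hO y (Set.mem_insert_of_mem _ hy)
    obtain ⟨c, h4, h5, h6⟩ := h.loc z (hO z (Set.mem_insert _ _))
    refine ⟨b * c, mul_mem h1 h4, h2.mul h5, ?_⟩
    rintro y (rfl | hy)
    · rw [mul_assoc]; exact mul_mem h1 h6
    · rw [mul_comm b, mul_assoc]; exact mul_mem h4 (h3 y hy)

/-- change of the ring which is localised -/
theorem IsLoc.of_forall (h : IsLoc A O) (hB : B ≤ O)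
    (hA : ∀ a ∈ A, ∃ b ∈ B, Un O b ∧ b * a ∈ B) : IsLoc B O := by
  refine ⟨hB, fun x hx => ?_⟩
  obtain ⟨b, h1, h2, h3⟩ := h.loc x hx
  obtain ⟨c, h4, h5, h6⟩ := hA b h1
  obtain ⟨e, h7, h8, h9⟩ := hA _ h3
  refine ⟨e * (c * b), mul_mem h7 h6, h8.mul (h5.mul h2), ?_⟩
  rw [show e * (c * b) * x = c * (e * (b * x)) by ring]
  exact mul_mem h4 h9

theorem IsLoc.mono (h : IsLoc A O) (hA : A ≤ B) (hB : B ≤ O) : IsLoc B O :=
  h.of_forall hB fun _ ha => ⟨1, one_mem _, un_one, by rw [one_mul]; exact hA ha⟩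

theorem IsLoc.trans (h : IsLoc A B) (h' : IsLoc B O) : IsLoc A O :=
  h'.of_forall (h.le.trans h'.le) fun a ha => by
    obtain ⟨b, h1, h2, h3⟩ := h.loc a ha
    exact ⟨b, h1, h2.mono h'.le, h3⟩


theorem isFr_mono (h : IsFr A) (hA : A ≤ B) : IsFr B :=
  h.of_forall fun _ ha => ⟨1, one_mem _, one_ne_zero, by rw [one_mul]; exact hA ha⟩

theorem smul_mem' {M : Submodule O F} {x y : F} (hx : x ∈ O) (hy : y ∈ M) : x * y ∈ M :=
  M.smul_mem (⟨x, hx⟩ : O) hy

theorem der_mem_adjoin {S : Set F} (hS : Algebra.adjoin k S ≤ O) (D : Derivation k F F)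
    {M : Submodule O F} (hM : ∀ a ∈ S, D a ∈ M) {x : F} (hx : x ∈ Algebra.adjoin k S) :
    D x ∈ M := by
  induction hx using Algebra.adjoin_induction with
  | mem a ha => exact hM a ha
  | algebraMap c => rw [D.map_algebraMap]; exact zero_mem _
  | add a b _ _ ha hb => rw [map_add]; exact add_mem ha hb
  | mul a b ha' hb' ha hb =>
    rw [D.leibniz]
    exact add_mem (smul_mem' (hS ha') hb) (smul_mem' (hS hb') ha)

/-- the values of a derivation on a localisation -/
theorem IsLoc.der_mem {S : Set F} (h : IsLoc (Algebra.adjoin k S) O) (D : Derivation k F F)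
    {M : Submodule O F} (hM : ∀ a ∈ S, D a ∈ M) {x : F} (hx : x ∈ O) : D x ∈ M := by
  obtain ⟨b, h1, h2, h3⟩ := h.loc x hx
  have h4 : D x = b⁻¹ * (D (b * x) - x * D b) := by
    rw [D.leibniz, smul_eq_mul, smul_eq_mul, add_sub_cancel_right, ← mul_assoc,
      inv_mul_cancel₀ h2.1, one_mul]
  rw [h4]
  exact smul_mem' h2.2.2 (sub_mem (der_mem_adjoin h.le D hM h3)
    (smul_mem' hx (der_mem_adjoin h.le D hM h1)))

theorem mem_one' {x : F} : x ∈ (1 : Submodule O F) ↔ x ∈ O := by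
  rw [Submodule.mem_one]
  exact ⟨fun ⟨y, h⟩ => h ▸ y.2, fun h => ⟨⟨x, h⟩, rfl⟩⟩

theorem un_of_not_van {x : F} (hx : x ∈ O) (h : ¬ Van O x) : Un O x := by
  by_contra h1
  exact h ⟨hx, h1⟩

theorem Van.neg' {x : F} (hx : Van O x) : Van O (-x) := by
  have := Van.mul_left (neg_mem (one_mem O)) hx
  rwa [neg_one_mul] at this

theorem un_add_van [IsLocalRing O] {x y : F} (hx : Un O x) (hy : Van O y) : Un O (x + y) :=
  un_of_not_van (add_mem hx.2.1 hy.1) fun h => by
    have h1 := h.add (Van.neg' hy)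
    rw [add_neg_cancel_right] at h1
    exact h1.2 hx

theorem van_of_le {x : F} (h : B ≤ O) (hx : x ∈ B) (hv : Van O x) : Van B x :=
  ⟨hx, fun hu => hv.2 (hu.mono h)⟩

/-- the centre of `O` in `A` -/
def ctr [IsLocalRing O] (h : A ≤ O) : Ideal A :=
  (maximalIdeal O).comap (Subalgebra.inclusion h)

theorem mem_ctr [IsLocalRing O] (h : A ≤ O) {a : A} : a ∈ ctr h ↔ Van O a :=
  (van_iff_mem_max (Subalgebra.inclusion h a)).symm

instance [IsLocalRing O] (h : A ≤ O) : (ctr h).IsPrime := Ideal.comap_isPrime _ _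

/-- **Nullstellensatz** : a closed point of the closure of `O` outside `b = 0` -/
theorem exists_pt [IsAlgClosed k] [Algebra.FiniteType k A] [IsLocalRing O] (h : A ≤ O) {b : F}
    (hb : b ∈ A) (hu : Un O b) :
    ∃ ψ : A →ₐ[k] k, ψ ⟨b, hb⟩ ≠ 0 ∧ lo A ψ ≤ O := by
  have : IsJacobsonRing A := isJacobsonRing_of_finiteType (A := k)
  have h1 : (⟨b, hb⟩ : A) ∉ (ctr h).jacobson := by
    rw [isJacobsonRing_iff_prime_eq.1 this _ inferInstance, mem_ctr]
    exact fun h2 => h2.2 hu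
  rw [Ideal.jacobson, Ideal.mem_sInf] at h1
  push Not at h1
  obtain ⟨q, ⟨hq1, hq⟩, hq2⟩ := h1
  let : Field (A ⧸ q) := Ideal.Quotient.field q
  have : Module.Finite k (A ⧸ q) := finite_of_finite_type_of_isJacobsonRing k (A ⧸ q)
  let e : k ≃ₐ[k] A ⧸ q := AlgEquiv.ofBijective (Algebra.ofId k (A ⧸ q))
    (IsAlgClosed.algebraMap_bijective_of_isIntegral (k := k) (K := A ⧸ q))
  have he : ∀ a : A, e.symm.toAlgHom.comp (Ideal.Quotient.mkₐ k q) a = 0 ↔ a ∈ q := fun a => by
    change e.symm (Ideal.Quotient.mk q a) = 0 ↔ _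
    rw [map_eq_zero_iff _ e.symm.injective, Ideal.Quotient.eq_zero_iff_mem]
  refine ⟨e.symm.toAlgHom.comp (Ideal.Quotient.mkₐ k q), fun h0 => hq2 ((he _).1 h0),
    lo_le_of_un h fun a ha => un_of_not_van (h a.2) fun hv => ?_⟩
  exact ha ((he a).2 (hq1 ((mem_ctr h).2 hv)))

/-- coordinates are algebraically independent over a ring of units -/
theorem algInd_coords [CharZero k] [IsLocalRing O] {c : ℕ} {t : Fin c → F} (ht : Coords O t)
    (h : A ≤ O) (hA : ∀ a ∈ A, a ≠ 0 → Un O a) : AlgebraicIndependent A t := by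
  classical
  rw [algebraicIndependent_iff]
  intro P hP
  obtain ⟨d, hd⟩ := ht.exists_der
  have hm := maximalIdeal.isMaximal O
  have : Nontrivial (O ⧸ maximalIdeal O) := Ideal.Quotient.nontrivial_iff.2 hm.ne_top
  have : CharZero (O ⧸ maximalIdeal O) :=
    charZero_of_injective_algebraMap (algebraMap k _).injective
  let ι : A →+* O := Subalgebra.inclusion h
  have h0 : MvPolynomial.eval ht.el (MvPolynomial.map ι P) = 0 := by
    apply Subtype.val_injective
    rw [← MvPolynomial.eval₂_eq_eval_map]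
    refine (MvPolynomial.eval₂_comp_left O.val.toRingHom ι ht.el P).trans ?_
    rw [MvPolynomial.aeval_def] at hP
    exact hP
  have key : ∀ e, MvPolynomial.homogeneousComponent e P = 0 := by
    intro e
    induction e using Nat.strong_induction_on with
    | _ e ih =>
    by_cases he : P.totalDegree < e
    · exact MvPolynomial.homogeneousComponent_eq_zero e P he
    have hh : ∀ i, (MvPolynomial.map ι (MvPolynomial.homogeneousComponent i P)).IsHomogeneous i :=
      fun i => (MvPolynomial.homogeneousComponent_isHomogeneous i P).map _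
    have h1 := Res.P0.map_eq_zero_of_mem (R := k) (maximalIdeal O) ⊥ ht.el d hd
      (fun l f hf => by rw [Ideal.mem_bot.1 hf, map_zero]; exact zero_mem _) bot_le
      ht.span_eq.le e _ (hh e) (by
        rw [← P.sum_homogeneousComponent, map_sum, map_sum, ← Finset.add_sum_erase _ _
          (Finset.mem_range.2 (by omega : e < P.totalDegree + 1))] at h0
        rw [eq_neg_of_add_eq_zero_left h0]
        refine Ideal.mem_sup_right (neg_mem (Ideal.sum_mem _ fun i hi => ?_))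
        rcases lt_or_gt_of_ne (Finset.ne_of_mem_erase hi) with h2 | h2
        · rw [ih i h2, map_zero, map_zero]; exact zero_mem _
        · exact Ideal.pow_le_pow_right h2
            ((Ideal.mem_span_pow_iff_exists_isHomogeneous _ _).2 ⟨_, hh i, rfl⟩))
    ext m
    have h2 := congrArg (MvPolynomial.coeff m) h1
    rw [MvPolynomial.coeff_map, MvPolynomial.coeff_map, MvPolynomial.coeff_zero,
      Ideal.Quotient.eq_zero_iff_mem, ← van_iff_mem_max] at h2
    rw [MvPolynomial.coeff_zero]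
    by_contra h3
    exact h2.2 (hA _ (MvPolynomial.coeff m (MvPolynomial.homogeneousComponent e P)).2 h3)
  rw [← P.sum_homogeneousComponent]
  exact Finset.sum_eq_zero fun i _ => key i

theorem aeval_mem (h : A ≤ O) {a : F} (ha : a ∈ O) (Q : Polynomial A) :
    Polynomial.aeval a Q ∈ O := by
  induction Q using Polynomial.induction_on' with
  | add p q hp hq => rw [map_add]; exact add_mem hp hq
  | monomial n c =>
    rw [Polynomial.aeval_monomial]
    exact mul_mem (h c.2) (pow_mem ha n)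

/-- a separable equation modulo the maximal ideal -/
theorem exists_sep_poly [CharZero k] (h : A ≤ O) (hA : ∀ a ∈ A, a ≠ 0 → Un O a) {a : F}
    (ha : a ∈ O) (Q : Polynomial A) (h0 : Q ≠ 0) (hQ : Van O (Polynomial.aeval a Q)) :
    ∃ Q : Polynomial A, Van O (Polynomial.aeval a Q) ∧
      Un O (Polynomial.aeval a (Polynomial.derivative Q)) := by
  have : CharZero A := charZero_of_injective_algebraMap (algebraMap k A).injective
  induction hn : Q.natDegree using Nat.strong_induction_on generalizing Q with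
  | _ n ih =>
  by_cases h1 : Van O (Polynomial.aeval a (Polynomial.derivative Q))
  · have h2 : Q.natDegree ≠ 0 := fun h2 => by
      rw [Polynomial.eq_C_of_natDegree_eq_zero h2] at hQ h0
      rw [Polynomial.aeval_C] at hQ
      exact hQ.2 (hA _ (Q.coeff 0).2 fun h3 => h0 (by
        rw [show Q.coeff 0 = 0 from Subtype.ext h3, map_zero]))
    exact ih _ (hn ▸ Polynomial.natDegree_derivative_lt h2) _
      (fun h3 => h2 (Polynomial.derivative_eq_zero.1 h3)) h1 rfl
  · exact ⟨Q, hQ, un_of_not_van (aeval_mem h ha _) h1⟩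

/-- a transcendence basis inside a generating family -/
theorem exists_tb {κ : Type} [CommRing κ] [IsDomain κ] [Algebra k κ] {ι : Type} [Finite ι]
    (b : ι → κ) (hb : Algebra.adjoin k (Set.range b) = ⊤) :
    ∃ (T : Type) (_ : Fintype T) (j : T → ι), AlgebraicIndependent k (fun τ => b (j τ)) ∧
      ∀ i, ∃ p : Polynomial (MvPolynomial T k), p ≠ 0 ∧
        p.eval₂ (MvPolynomial.aeval fun τ => b (j τ)).toRingHom (b i) = 0 := by
  have : Algebra.IsAlgebraic (Algebra.adjoin k (Set.range b)) κ :=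
    ⟨fun z => isAlgebraic_algebraMap (⟨z, hb ▸ trivial⟩ : Algebra.adjoin k (Set.range b))⟩
  obtain ⟨T, hT, hB⟩ := exists_isTranscendenceBasis_subset (R := k) (Set.range b)
  have : Finite T := (Set.finite_range _).subset hT
  choose j hj using fun τ : T => hT τ.2
  refine ⟨T, Fintype.ofFinite T, j, funext hj ▸ hB.1, fun i => ?_⟩
  obtain ⟨p, hp0, hp⟩ := hB.isAlgebraic.isAlgebraic (b i)
  refine ⟨p.map hB.1.aevalEquiv.symm.toAlgHom.toRingHom, fun h0 => hp0 (Polynomial.map_injective _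
    hB.1.aevalEquiv.symm.injective (h0.trans (Polynomial.map_zero _).symm)), ?_⟩
  rw [Polynomial.eval₂_map, ← hp, Polynomial.aeval_def, funext hj]
  congr 1
  refine RingHom.ext fun z => ?_
  exact (hB.1.algebraMap_aevalEquiv _).symm.trans
    (congrArg _ (hB.1.aevalEquiv.apply_symm_apply z))

theorem exists_tb' {κ : Type} [CommRing κ] [IsDomain κ] [Algebra k κ] {ι : Type} [Finite ι]
    (b : ι → κ) :
    ∃ (T : Type) (_ : Fintype T) (j : T → ι), AlgebraicIndependent k (fun τ => b (j τ)) ∧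
      ∀ i, ∃ p : Polynomial (MvPolynomial T k), p ≠ 0 ∧
        p.eval₂ (MvPolynomial.aeval fun τ => b (j τ)).toRingHom (b i) = 0 := by
  obtain ⟨B, hB⟩ : ∃ B, B = Algebra.adjoin k (Set.range b) := ⟨_, rfl⟩
  have hb : ∀ i, b i ∈ B := fun i => hB ▸ Algebra.subset_adjoin ⟨i, rfl⟩
  obtain ⟨T, _, j, h1, h2⟩ := exists_tb (k := k) (κ := B) (fun i => ⟨b i, hb i⟩) (by
    apply Subalgebra.map_injective (f := B.val) Subtype.val_injective
    rw [AlgHom.map_adjoin, ← Set.range_comp, Algebra.map_top, Subalgebra.range_val]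
    exact hB.symm)
  refine ⟨T, inferInstance, j, h1.map' (f := B.val) Subtype.val_injective, fun i => ?_⟩
  obtain ⟨p, h3, h4⟩ := h2 i
  refine ⟨p, h3, ?_⟩
  have h5 := congrArg B.val.toRingHom h4
  rw [Polynomial.hom_eval₂, map_zero] at h5
  have h6 : (MvPolynomial.aeval fun τ => b (j τ)).toRingHom = B.val.toRingHom.comp
      (MvPolynomial.aeval fun τ => (⟨b (j τ), hb _⟩ : B)).toRingHom :=
    RingHom.ext fun P => (MvPolynomial.comp_aeval_apply (fun τ => (⟨b (j τ), hb _⟩ : B))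
      B.val P).symm
  rw [h6]
  exact h5

/-- **separating data** : `x` lifts a transcendence basis of the residue field -/
theorem exists_sep [CharZero k] [IsLocalRing O] {ι : Type} [Finite ι] (a : ι → F)
    (h : ∀ j, a j ∈ O) : ∃ (T : Type) (_ : Fintype T) (x : T → F), (∀ τ, x τ ∈ Set.range a) ∧
      AlgebraicIndependent k x ∧ (∀ y ∈ Algebra.adjoin k (Set.range x), y ≠ 0 → Un O y) ∧
      ∀ j, ∃ Q : Polynomial (Algebra.adjoin k (Set.range x)), Van O (Polynomial.aeval (a j) Q) ∧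
        Un O (Polynomial.aeval (a j) (Polynomial.derivative Q)) := by
  classical
  let a' : ι → O := fun j => ⟨a j, h j⟩
  let π : O →ₐ[k] ResidueField O := IsScalarTower.toAlgHom k O _
  have hπ : ∀ y : O, π y = 0 ↔ Van O y := fun y =>
    (residue_eq_zero_iff y).trans (van_iff_mem_max y).symm
  obtain ⟨T, _, j, hb, hp⟩ := exists_tb' (k := k) fun i => π (a' i)
  have hval : ∀ P : MvPolynomial T k, ((MvPolynomial.aeval (fun τ => a' (j τ)) P : O) : F) =
      MvPolynomial.aeval (fun τ => a (j τ)) P := fun P =>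
    MvPolynomial.comp_aeval_apply _ O.val P
  have hπP : ∀ P : MvPolynomial T k, π (MvPolynomial.aeval (fun τ => a' (j τ)) P) =
      MvPolynomial.aeval (fun τ => π (a' (j τ))) P := fun P => MvPolynomial.comp_aeval_apply _ π P
  have hu : ∀ P : MvPolynomial T k, P ≠ 0 → Un O (MvPolynomial.aeval (fun τ => a (j τ)) P) :=
    fun P hP => hval P ▸ un_of_not_van (Subtype.property _) fun hv =>
      hP (algebraicIndependent_iff.1 hb P (hπP P ▸ (hπ _).2 hv))
  have hi : AlgebraicIndependent k fun τ => a (j τ) := algebraicIndependent_iff.2 fun P hP => by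
    by_contra h0
    exact (hu P h0).1 hP
  have hU : ∀ y ∈ Algebra.adjoin k (Set.range fun τ => a (j τ)), y ≠ 0 → Un O y := by
    intro y hy h0
    rw [Algebra.adjoin_range_eq_range_aeval] at hy
    obtain ⟨P, rfl⟩ := hy
    exact hu P fun h2 => h0 (by rw [h2]; exact map_zero _)
  refine ⟨T, inferInstance, fun τ => a (j τ), fun τ => ⟨_, rfl⟩, hi, hU, fun i => ?_⟩
  obtain ⟨p, hp0, hp⟩ := hp i
  refine exists_sep_poly (Algebra.adjoin_le (by rintro _ ⟨τ, rfl⟩; exact h _)) hU (h i)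
    (p.map hi.aevalEquiv.toAlgHom.toRingHom) (fun h0 => hp0 (Polynomial.map_injective _
      hi.aevalEquiv.injective (h0.trans (Polynomial.map_zero _).symm))) ?_
  let θ : MvPolynomial T k →+* O := (MvPolynomial.aeval fun τ => a' (j τ)).toRingHom
  have h2 : π (p.eval₂ θ (a' i)) = 0 := by
    rw [← hp]
    refine (Polynomial.hom_eval₂ p θ π.toRingHom (a' i)).trans ?_
    congr 1
    exact RingHom.ext hπP
  have h3 : ((p.eval₂ θ (a' i) : O) : F) =
      Polynomial.aeval (a i) (p.map hi.aevalEquiv.toAlgHom.toRingHom) := by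
    rw [Polynomial.aeval_def, Polynomial.eval₂_map]
    refine (Polynomial.hom_eval₂ p θ O.val.toRingHom (a' i)).trans ?_
    congr 1
    exact RingHom.ext hval
  exact h3 ▸ (hπ _).1 h2

end Crest.Agent.X262.R139
end
end

-- ▼ part X262/R139/Spr
section

/-!
# Row 262, R1 + MODEL (helper39), part 2: spreading out of coordinates

* `exists_frame` : coordinates of a local ring at a non closed point extend to a frame;
* `spread`       : and to coordinates at a closed point of the closure.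
-/

set_option autoImplicit false

noncomputable section

namespace Crest.Agent.X262.R139

open Crest.Agent.X277 Crest.Agent.X277.Lef Crest.Agent.X277.Res.Out IsLocalRing

variable {k F : Type} [Field k] [Field F] [Algebra k F] {A B O : Subalgebra k F}

theorem der_aeval (D : Derivation k F F) (hD : ∀ x ∈ A, D x ∈ O) {a : F} (ha : a ∈ O)
    (Q : Polynomial A) : D (Polynomial.aeval a Q) -
      Polynomial.aeval a (Polynomial.derivative Q) * D a ∈ O := by
  induction Q using Polynomial.induction_on' with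
  | add p q hp hq =>
    rw [map_add, map_add, map_add, map_add, add_mul, add_sub_add_comm]
    exact add_mem hp hq
  | monomial n c =>
    rw [Polynomial.derivative_monomial, Polynomial.aeval_monomial, Polynomial.aeval_monomial,
      D.leibniz, D.leibniz_pow, map_mul, map_natCast]
    have h1 : (algebraMap A F c) • n • a ^ (n - 1) • D a + a ^ n • D (algebraMap A F c) -
        algebraMap A F c * n * a ^ (n - 1) * D a = a ^ n * D c := by
      simp only [smul_eq_mul, nsmul_eq_mul]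
      change _ + _ * D c - _ = _
      ring
    rw [h1]
    exact mul_mem (pow_mem ha n) (hD c c.2)

/-- a derivation which is regular on the coordinates and on separating elements is regular -/
theorem der_reg [IsLocalRing O] {ι : Type} [Finite ι] {a : ι → F}
    (h : IsLoc (Algebra.adjoin k (Set.range a)) O) {c : ℕ} {t : Fin c → F} (ht : Coords O t)
    (hA : A ≤ O) (hQ : ∀ j, ∃ Q : Polynomial A, Van O (Polynomial.aeval (a j) Q) ∧
      Un O (Polynomial.aeval (a j) (Polynomial.derivative Q)))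
    (D : Derivation k F F) (h1 : ∀ l, D (t l) ∈ O) (h2 : ∀ x ∈ A, D x ∈ O) :
    ∀ x ∈ O, D x ∈ O := by
  have ha : ∀ j, a j ∈ O := fun j => h.le (Algebra.subset_adjoin ⟨j, rfl⟩)
  let M : Submodule O F := Submodule.span O (Set.range fun j => D (a j))
  have hM : ∀ x ∈ O, D x ∈ M := fun x hx => h.der_mem D
    (by rintro _ ⟨j, rfl⟩; exact Submodule.subset_span ⟨j, rfl⟩) hx
  have key : M ≤ 1 := by
    refine Submodule.le_of_le_smul_of_le_jacobson_bot (I := maximalIdeal O)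
      (Submodule.fg_span (Set.finite_range _)) (maximalIdeal_le_jacobson _) ?_
    rw [Submodule.span_le]
    rintro _ ⟨j, rfl⟩
    obtain ⟨Q, h3, h4⟩ := hQ j
    obtain ⟨r, hr, h5⟩ := ht.gen _ h3
    have h6 := der_aeval D h2 (ha j) Q
    have h7 : D (Polynomial.aeval (a j) Q) ∈ (1 : Submodule O F) ⊔ maximalIdeal O • M := by
      rw [h5, map_sum]
      refine sum_mem fun l _ => ?_
      rw [D.leibniz]
      exact Submodule.add_mem_sup (mem_one'.2 (mul_mem (hr l) (h1 l)))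
        (Submodule.smul_mem_smul (r := ht.el l) ((van_iff_mem_max _).1 (ht.van l)) (hM _ (hr l)))
    have h8 := smul_mem' h4.2.2 (sub_mem h7 (Submodule.mem_sup_left (mem_one'.2 h6)))
    rwa [sub_sub_cancel, ← mul_assoc, inv_mul_cancel₀ h4.1, one_mul] at h8
  exact fun x hx => mem_one'.1 (key (hM x hx))

/-- **frames at non closed points** -/
theorem exists_frame [CharZero k] [IsLocalRing O] {ι : Type} [Finite ι] {a : ι → F}
    (h : IsLoc (Algebra.adjoin k (Set.range a)) O) {c : ℕ} {t : Fin c → F} (ht : Coords O t) :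
    ∃ (T : Type) (_ : Fintype T) (_ : DecidableEq T) (x : T → F)
      (D : Fin c ⊕ T → Derivation k F F), (∀ τ, x τ ∈ Set.range a) ∧
      (∀ y ∈ Algebra.adjoin k (Set.range x), y ≠ 0 → Un O y) ∧
      (∀ j, ∃ Q : Polynomial (Algebra.adjoin k (Set.range x)), Van O (Polynomial.aeval (a j) Q) ∧
        Un O (Polynomial.aeval (a j) (Polynomial.derivative Q))) ∧
      (∀ e, ∀ y ∈ O, D e y ∈ O) ∧ ∀ e e', D e (Sum.elim t x e') = if e = e' then 1 else 0 := by
  classical
  have ha : ∀ j, a j ∈ O := fun j => h.le (Algebra.subset_adjoin ⟨j, rfl⟩)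
  obtain ⟨T, _, x, h1, h2, h3, h4⟩ := exists_sep a ha
  have hx : Algebra.adjoin k (Set.range x) ≤ O := Algebra.adjoin_le (by
    rintro _ ⟨τ, rfl⟩
    obtain ⟨j, hj⟩ := h1 τ
    exact hj ▸ ha j)
  have h5 := h2.sumElim (algInd_coords ht hx h3)
  choose D hD using fun e : Fin c ⊕ T => Exc.exists_der h5 fun e' => if e = e' then 1 else 0
  have h6 : ∀ e e', D e (Sum.elim t x e') ∈ O := fun e e' => by
    rw [hD]
    split_ifs
    · exact one_mem _
    · exact zero_mem _
  refine ⟨T, inferInstance, inferInstance, x, D, h1, h3, h4, fun e => ?_, fun e e' => ?_⟩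
  · refine der_reg h ht hx h4 (D e) (fun l => h6 e (Sum.inl l)) fun y hy => ?_
    refine mem_one'.1 (der_mem_adjoin hx (D e) ?_ hy)
    rintro _ ⟨τ, rfl⟩
    exact mem_one'.2 (h6 e (Sum.inr τ))
  · rw [hD]

theorem coords_of_fintype {κ : Type} [Fintype κ] [DecidableEq κ] {s : κ → F}
    (h1 : ∀ e, Van O (s e)) (h2 : ∀ y, Van O y → y ∈ Submodule.span O (Set.range s))
    (D : κ → Derivation k F F) (h3 : ∀ e, ∀ y ∈ O, D e y ∈ O)
    (h4 : ∀ e e', D e (s e') = if e = e' then 1 else 0) {n : ℕ} (ε : Fin n ≃ κ) :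
    Coords O (s ∘ ε) := by
  refine ⟨fun l => h1 _, fun y hy => ?_, fun l => D (ε l), fun l => h3 _, fun l j => ?_⟩
  · obtain ⟨r, hr⟩ := (Submodule.mem_span_range_iff_exists_fun _).1 (h2 y hy)
    refine ⟨fun l => r (ε l), fun l => (r _).2, ?_⟩
    rw [← hr, ← ε.sum_comp]
    rfl
  · rw [Function.comp_apply, h4]
    simp only [ε.apply_eq_iff_eq]

/-- constants plus an ideal -/
def kI (I : Submodule O F) (hI : ∀ y ∈ I, y ∈ O) : Subalgebra k F where
  carrier := {y | ∃ c : k, y - algebraMap k F c ∈ I}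
  mul_mem' := by
    rintro y z ⟨c, hc⟩ ⟨e, he⟩
    refine ⟨c * e, ?_⟩
    rw [show y * z - algebraMap k F (c * e) = (z - algebraMap k F e + algebraMap k F e) *
      (y - algebraMap k F c) + algebraMap k F c * (z - algebraMap k F e) by rw [map_mul]; ring]
    exact add_mem (smul_mem' (add_mem (hI _ he) (O.algebraMap_mem e)) hc)
      (smul_mem' (O.algebraMap_mem c) he)
  add_mem' := by
    rintro y z ⟨c, hc⟩ ⟨e, he⟩
    exact ⟨c + e, by rw [map_add, add_sub_add_comm]; exact add_mem hc he⟩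
  algebraMap_mem' c := ⟨c, by rw [sub_self]; exact zero_mem _⟩

theorem mem_of_kI [IsLocalRing O] {I : Submodule O F} (hI : ∀ y ∈ I, Van O y) {y : F}
    (h : y ∈ kI I fun y hy => (hI y hy).1) (hy : Van O y) : y ∈ I := by
  obtain ⟨c, hc⟩ := h
  by_cases h0 : c = 0
  · rwa [h0, map_zero, sub_zero] at hc
  · have h1 := hy.add (Van.neg' (hI _ hc))
    rw [← sub_eq_add_neg, sub_sub_cancel] at h1
    exact absurd ⟨by simpa using h0, h1.1, by rw [← map_inv₀]; exact O.algebraMap_mem _⟩ h1.2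

/-- Hensel's uniqueness -/
theorem sub_mem_of_sep [IsLocalRing O] {I : Submodule O F} (hI : ∀ y ∈ I, Van O y) (hA : A ≤ O)
    (hA' : A ≤ kI I fun y hy => (hI y hy).1) {a : F} {c : k} (ha : Van O (a - algebraMap k F c))
    {Q : Polynomial A} (h1 : Polynomial.aeval a Q ∈ I)
    (h2 : Un O (Polynomial.aeval a (Polynomial.derivative Q))) : a - algebraMap k F c ∈ I := by
  have haO : a ∈ O := by simpa using add_mem ha.1 (O.algebraMap_mem c)
  let ι : A →+* O := Subalgebra.inclusion hA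
  have hv : ∀ (R : Polynomial A) (y : O), (((R.map ι).eval y : O) : F) = Polynomial.aeval (y : F) R :=
    fun R y => by
      rw [Polynomial.eval_map, Polynomial.aeval_def]
      exact Polynomial.hom_eval₂ R ι O.val.toRingHom y
  obtain ⟨κ, hκ⟩ := (Q.map ι).binomExpansion ⟨a, haO⟩ ⟨_, (Van.neg' ha).1⟩
  have h3 := congrArg Subtype.val hκ
  rw [Polynomial.derivative_map] at h3
  simp only [Subalgebra.coe_add, MulMemClass.coe_mul, SubmonoidClass.coe_pow, hv] at h3
  rw [show a + -(a - algebraMap k F c) = algebraMap k F c by ring] at h3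
  have h4 : Un O (Polynomial.aeval a (Polynomial.derivative Q) + κ * -(a - algebraMap k F c)) :=
    un_add_van h2 (Van.mul_left κ.2 (Van.neg' ha))
  have h5 : Polynomial.aeval (algebraMap k F c) Q = Polynomial.aeval a Q +
      (Polynomial.aeval a (Polynomial.derivative Q) + κ * -(a - algebraMap k F c)) *
        -(a - algebraMap k F c) := by rw [h3]; ring
  have h6 : Polynomial.aeval (algebraMap k F c) Q ∈ I :=
    mem_of_kI hI (hA' (aeval_mem le_rfl (A.algebraMap_mem c) Q))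
      (h5 ▸ (hI _ h1).add (Van.mul_left h4.2.1 (Van.neg' ha)))
  have h7 := smul_mem' h4.2.2 (sub_mem h1 h6)
  rwa [h5, sub_add_cancel_left, ← mul_neg, neg_neg, ← mul_assoc, inv_mul_cancel₀ h4.1,
    one_mul] at h7

/-- **spreading out** : coordinates at a closed point of the closure -/
theorem spread [IsAlgClosed k] [CharZero k] [IsLocalRing O] [Algebra.FiniteType k A]
    (h : IsLoc A O) {c : ℕ} {t : Fin c → F} (ht : Coords O t) {Z : Set F} (hZ : Z.Finite)
    (hZO : ∀ z ∈ Z, z ∈ O) :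
    ∃ (ψ : A →ₐ[k] k) (n : ℕ) (s : Fin n → F) (σ : Fin c → Fin n), lo A ψ ≤ O ∧
      (∀ z ∈ Z, z ∈ lo A ψ) ∧ Coords (lo A ψ) s ∧ Function.Injective σ ∧ ∀ l, s (σ l) = t l := by
  classical
  obtain ⟨S, hS⟩ := (Subalgebra.fg_iff_finiteType A).2 inferInstance
  obtain ⟨a, rfl⟩ : ∃ a : S → F, A = Algebra.adjoin k (Set.range a) :=
    ⟨Subtype.val, by rw [Subtype.range_coe_subtype]; exact hS.symm⟩
  have haA : ∀ j, a j ∈ Algebra.adjoin k (Set.range a) := fun j => Algebra.subset_adjoin ⟨j, rfl⟩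
  obtain ⟨T, _, _, x, D, h1, -, h3, h4, h5⟩ := exists_frame h ht
  choose Q hQ hQ' using h3
  choose r hr hr' using fun j => ht.gen _ (hQ j)
  obtain ⟨b, hb, hb', hb''⟩ := h.exists_den (Z := Z ∪ Set.range t ∪
    (Set.range fun p : S × Fin c => r p.1 p.2) ∪ (Set.range fun p : _ × S => D p.1 (a p.2)) ∪
    Set.range fun j => (Polynomial.aeval (a j) (Polynomial.derivative (Q j)))⁻¹)
    (((((hZ.union (Set.finite_range _)).union (Set.finite_range _))).union
      (Set.finite_range _)).union (Set.finite_range _)) (by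
    rintro z ((((hz | ⟨l, rfl⟩) | ⟨p, rfl⟩) | ⟨p, rfl⟩) | ⟨j, rfl⟩)
    exacts [hZO z hz, ht.mem l, hr _ _, h4 _ _ (h.le (haA _)), (hQ' j).2.2])
  obtain ⟨ψ, hψ, hle⟩ := exists_pt h.le hb hb'
  have hL := fun z hz => (mem_lo.2 ⟨⟨b, hb⟩, hψ, hb'' z hz⟩ : z ∈ lo _ ψ)
  have hx : ∀ τ, x τ ∈ Algebra.adjoin k (Set.range a) := fun τ => Algebra.subset_adjoin (h1 τ)
  have hxA : Algebra.adjoin k (Set.range x) ≤ lo _ ψ :=
    (Algebra.adjoin_le (by rintro _ ⟨τ, rfl⟩; exact hx τ)).trans (le_lo ψ)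
  choose v hv using fun τ => exists_sub_van (le_lo ψ (hx τ))
  let s : Fin c ⊕ T → F := Sum.elim t fun τ => x τ - algebraMap k F (v τ)
  have hs : ∀ e, Van (lo _ ψ) (s e) := by
    rintro (l | τ)
    · exact van_of_le hle (hL _ (Or.inl (Or.inl (Or.inl (Or.inr ⟨l, rfl⟩))))) (ht.van l)
    · exact hv τ
  let I : Submodule (lo _ ψ) F := Submodule.span _ (Set.range s)
  have hI : ∀ y ∈ I, Van (lo _ ψ) y := fun y hy => by
    obtain ⟨ρ, rfl⟩ := (Submodule.mem_span_range_iff_exists_fun _).1 hy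
    exact Van.sum _ fun e _ => Van.mul_left (ρ e).2 (hs e)
  have hx' : Algebra.adjoin k (Set.range x) ≤ kI I fun y hy => (hI y hy).1 :=
    Algebra.adjoin_le (by
      rintro _ ⟨τ, rfl⟩
      exact ⟨v τ, Submodule.subset_span ⟨Sum.inr τ, rfl⟩⟩)
  have ha' : Algebra.adjoin k (Set.range a) ≤ kI I fun y hy => (hI y hy).1 :=
    Algebra.adjoin_le (by
      rintro _ ⟨j, rfl⟩
      obtain ⟨w, hw⟩ := exists_sub_van (le_lo ψ (haA j))
      refine ⟨w, sub_mem_of_sep hI hxA hx' hw (Q := Q j) ?_ ⟨(hQ' j).1,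
        aeval_mem hxA (le_lo ψ (haA j)) _, hL _ (Or.inr ⟨j, rfl⟩)⟩⟩
      rw [hr' j]
      exact sum_mem fun l _ => smul_mem' (hL _ (Or.inl (Or.inl (Or.inr ⟨(j, l), rfl⟩))))
        (Submodule.subset_span ⟨Sum.inl l, rfl⟩))
  let ε := (Fintype.equivFin (Fin c ⊕ T)).symm
  refine ⟨ψ, _, s ∘ ε, fun l => ε.symm (Sum.inl l), hle, fun z hz => hL z (by simp [hz]),
    coords_of_fintype hs (fun y hy => ?_) D (fun e y hy => ?_) (fun e e' => ?_) ε,
    ε.symm.injective.comp Sum.inl_injective, fun l => by simp [s]⟩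
  · obtain ⟨b, hb, h6⟩ := hy.1
    have h7 := smul_mem' (un_lo hb).2.2
      (mem_of_kI hI (ha' h6) (Van.mul_left (le_lo ψ b.2) hy))
    rwa [← mul_assoc, inv_mul_cancel₀ (un_lo hb).1, one_mul] at h7
  · refine mem_one'.1 ((isLoc_lo ψ).der_mem (D e) ?_ hy)
    rintro _ ⟨j, rfl⟩
    exact mem_one'.2 (hL _ (Or.inl (Or.inr ⟨(e, j), rfl⟩)))
  · rw [← h5]
    rcases e' with l | τ
    · rfl
    · simp [s]

end Crest.Agent.X262.R139
end
end

-- ▼ part X262/R139/R1
section

/-!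
# Row 262, R1 + MODEL (helper39), part 3: a smooth model on which the closure of a regular point
is smooth

* `ZAt O L n t` : `O` is the localisation of `L` at a prime generated by coordinates;
* `r1_model`    : for a projective model with hyperplanes as parameters;
* `r1_fam`      : for a finite set of families of functions.
-/

set_option autoImplicit false

noncomputable section

namespace Crest.Agent.X262.R139

open Crest.Agent.X277 Crest.Agent.X277.Lef Crest.Agent.X277.Res.Out IsLocalRing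

variable {k F : Type} [Field k] [Field F] [Algebra k F] {A B O L : Subalgebra k F}

/-- `O` is the localisation of `L` at a prime which is generated by coordinates -/
structure ZAt (O L : Subalgebra k F) (n : ℕ) {c : ℕ} (t : Fin c → F) : Prop where
  loc : IsLoc L O
  crd : ∃ (s : Fin n → F) (σ : Fin c → Fin n), Coords L s ∧ Function.Injective σ ∧
    (∀ l, Un O (s (σ l) / t l)) ∧ ∀ a ∈ L, Van O a ↔ a ∈ Submodule.span L (Set.range (s ∘ σ))

/-- a coordinate is irreducible -/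
theorem un_of_coord [IsLocalRing O] {c : ℕ} {t : Fin c → F} (ht : Coords O t) {l : Fin c}
    {u x y : F} (hu : Un O u) (hx : Van O x) (hy : y ∈ O) (h : u * t l = x * y) : Un O y := by
  obtain ⟨d, hd, hd'⟩ := ht.der
  have h1 := congrArg (d l) h
  rw [(d l).leibniz, (d l).leibniz, hd', if_pos rfl] at h1
  simp only [smul_eq_mul, mul_one] at h1
  have h2 : Un O (y * d l x) := by
    rw [show y * d l x = u + (d l u * t l + -(d l y * x)) by linear_combination -h1]
    exact un_add_van hu ((Van.mul_left (hd l _ hu.2.1) (ht.van l)).add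
      (Van.neg' (Van.mul_left (hd l _ hy) hx)))
  exact Un.of_mul hy (hd l _ hx.1) h2

theorem exists_factor [IsLocalRing O] {c n : ℕ} {t : Fin c → F} (ht : Coords O t) {l : Fin c}
    {u : F} (hu : Un O u) {s : Fin n → F} (hs : ∀ m, s m ∈ O) {β : Fin n → ℕ}
    (h : u * t l = ∏ m, s m ^ β m) : ∃ m, Un O (s m / t l) := by
  classical
  by_cases h1 : ∀ m, β m = 0 ∨ Un O (s m)
  · have h2 : Un O (u * t l) := h ▸ Un.prod _ fun m _ => (h1 m).elim
      (fun h0 => by rw [h0, pow_zero]; exact un_one) fun h0 => h0.pow _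
    exact absurd (Un.of_mul (ht.mem l) hu.2.1 (by rwa [mul_comm])) (ht.van l).2
  push Not at h1
  obtain ⟨m, h2, h3⟩ := h1
  obtain ⟨e, he⟩ := Nat.exists_eq_succ_of_ne_zero h2
  rw [← Finset.mul_prod_erase _ _ (Finset.mem_univ m), he, pow_succ', mul_assoc] at h
  have h4 := un_of_coord ht hu ⟨hs m, h3⟩
    (mul_mem (pow_mem (hs m) e) (prod_mem fun j _ => pow_mem (hs j) _)) h
  refine ⟨m, ?_⟩
  have h5 := hu.div h4
  rwa [(div_eq_div_iff h4.1 (ht.ne_zero l)).2 h] at h5

theorem isPrime_span [CharZero k] [IsLocalRing L] [IsNoetherianRing L] {n : ℕ} {s : Fin n → F}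
    (hs : Coords L s) (S : Set (Fin n)) : (Ideal.span (hs.el '' S)).IsPrime := by
  obtain ⟨d, hd⟩ := hs.exists_der
  have hm := maximalIdeal.isMaximal L
  have : Nontrivial (L ⧸ maximalIdeal L) := Ideal.Quotient.nontrivial_iff.2 hm.ne_top
  have : CharZero (L ⧸ maximalIdeal L) :=
    charZero_of_injective_algebraMap (algebraMap k _).injective
  exact Res.P0.isPrime_span_coords (maximalIdeal L) hs.el d hd hs.span_eq S
    fun f hf => mem_of_forall_sup_pow hm.ne_top hf

theorem mem_span_iff {n c : ℕ} {s : Fin n → F} (hs : Coords L s) (σ : Fin c → Fin n) (a : L) :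
    a ∈ Ideal.span (hs.el '' Set.range σ) ↔ (a : F) ∈ Submodule.span L (Set.range (s ∘ σ)) := by
  rw [← Set.range_comp, Ideal.span, Submodule.mem_span_range_iff_exists_fun,
    Submodule.mem_span_range_iff_exists_fun]
  refine exists_congr fun r => ?_
  rw [← Subtype.coe_inj, AddSubmonoidClass.coe_finsetSum]
  rfl

theorem zAt_of [CharZero k] [IsLocalRing O] [IsLocalRing L] [IsNoetherianRing L] (h : IsLoc L O)
    {c n : ℕ} {t : Fin c → F} (ht : Coords O t) {s : Fin n → F} (hs : Coords L s)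
    (h1 : ∀ l, ∃ m, Un O (s m / t l)) : ZAt O L n t := by
  choose σ hσ using h1
  have hv : ∀ l, Van O (s (σ l)) := fun l => by
    have h2 := Van.mul_left (hσ l).2.1 (ht.van l)
    rwa [div_mul_cancel₀ _ (ht.ne_zero l)] at h2
  have hJ : ∀ a ∈ Submodule.span L (Set.range (s ∘ σ)), Van O a := fun a ha => by
    obtain ⟨r, rfl⟩ := (Submodule.mem_span_range_iff_exists_fun _).1 ha
    exact Van.sum _ fun l _ => Van.mul_left (h.le (r l).2) (hv l)
  refine ⟨h, s, σ, hs, fun l l' hl => ?_, hσ, fun a ha => ⟨fun h2 => ?_, hJ a⟩⟩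
  · by_contra h2
    refine ht.div_notMem h2 ?_
    have h3 := ((hσ l).div (hσ l')).2.1
    rwa [hl, div_div_div_cancel_left' _ _ (hs.ne_zero _)] at h3
  · obtain ⟨r, hr, h3⟩ := ht.gen a h2
    obtain ⟨b, h4, h5, h6⟩ := h.exists_den (Set.finite_range fun l => r l / (s (σ l) / t l)) (by
      rintro _ ⟨l, rfl⟩
      beta_reduce
      rw [div_eq_mul_inv]
      exact mul_mem (hr l) (hσ l).2.2)
    have h7 : b * a ∈ Submodule.span L (Set.range (s ∘ σ)) := by
      rw [h3, Finset.mul_sum]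
      refine sum_mem fun l _ => ?_
      have h8 := smul_mem' (M := Submodule.span L (Set.range (s ∘ σ))) (h6 _ ⟨l, rfl⟩)
        (Submodule.subset_span ⟨l, rfl⟩)
      have h9 := hs.ne_zero (σ l)
      have h10 := ht.ne_zero l
      rwa [Function.comp_apply, show b * (r l / (s (σ l) / t l)) * s (σ l) = b * (r l * t l) by
        field_simp] at h8
    rcases (isPrime_span hs (Set.range σ)).mem_or_mem
      ((mem_span_iff hs σ (⟨b, h4⟩ * ⟨a, ha⟩)).2 h7) with h8 | h8
    · exact absurd h5 (hJ _ ((mem_span_iff hs σ _).1 h8)).2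
    · exact (mem_span_iff hs σ _).1 h8

/-- a valuation ring as a subalgebra -/
def vsub (W : ValuationSubring F) (h : ∀ c, algebraMap k F c ∈ W) : Subalgebra k F :=
  { W.toSubring with algebraMap_mem' := h }

instance (W : ValuationSubring F) (h : ∀ c, algebraMap k F c ∈ W) : IsLocalRing (vsub W h) :=
  inferInstanceAs (IsLocalRing W)

/-- every valuation ring has a centre on a projective model -/
theorem exists_centre [IsAlgClosed k] (P : PModel k F) (W : ValuationSubring F)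
    (h : ∀ c, algebraMap k F c ∈ W) :
    ∃ (j : Fin (P.N + 1)) (φ : P.A j →ₐ[k] k), ∀ x ∈ lo (P.A j) φ, x ∈ W := by
  obtain ⟨j, -, hj⟩ := Finset.exists_max_image Finset.univ (fun j => W.valuation (P.y j))
    Finset.univ_nonempty
  have := P.finiteType j
  have h1 : P.A j ≤ vsub W h := chart_le fun l => (W.valuation_le_one_iff _).1 (by
    rw [map_div₀, div_le_one₀ (zero_lt_iff.2 ((map_ne_zero _).2 (P.y_ne j)))]
    exact hj l (Finset.mem_univ l))
  obtain ⟨φ, -, h2⟩ := exists_pt h1 (one_mem _) un_one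
  exact ⟨j, φ, h2⟩

/-- **(R1)** for a projective model -/
theorem r1_model [IsAlgClosed k] [CharZero k] [IsLocalRing O] {N : ℕ} {y : Fin (N + 1) → F}
    (hy : ∀ i, y i ≠ 0) {i : Fin (N + 1)} (hfr : IsFr (chart k y i)) (h : IsLoc (chart k y i) O)
    {c : ℕ} (β : Fin c → Fin (N + 1)) (ht : Coords O fun l => y (β l) / y i) :
    ∃ (P : PModel k F) (n : ℕ),
      (∀ (j : Fin (P.N + 1)) (φ : P.A j →ₐ[k] k), ∃ i₀, ∀ j', y j' / y i₀ ∈ lo (P.A j) φ) ∧
      (∃ (j : Fin (P.N + 1)) (φ : P.A j →ₐ[k] k), lo (P.A j) φ ≤ O) ∧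
      ∀ (j : Fin (P.N + 1)) (φ : P.A j →ₐ[k] k), lo (P.A j) φ ≤ O →
        ZAt O (lo (P.A j) φ) n fun l => y (β l) / y i := by
  classical
  obtain ⟨P, n, -, hP⟩ := Res.plusStmt k F N y (Set.range β) 1 hy (hfr.chart hy 0)
    fun j => ⟨0, fun a => by simp⟩
  refine ⟨P, n, fun j φ => ?_, ?_, fun j φ hle => ?_⟩
  · obtain ⟨s, i₀, h1⟩ := hP j φ
    exact ⟨i₀, h1.dom⟩
  · have := finiteType_chart (k := k) y i
    obtain ⟨ψ, m, s, σ, h1, -, h2, h3, h4⟩ := spread h ht Set.finite_empty (by simp)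
    have hS : Res.Snc y (Set.range β) i (lo _ ψ) := by
      refine ⟨m, s, fun j => if hj : j ∈ Set.range β then some (σ hj.choose) else none, h2,
        fun j hj j' hj' l h5 h6 => ?_, fun j hj => ?_⟩
      · simp only [dif_pos hj, Option.some_inj] at h5
        simp only [dif_pos hj', Option.some_inj] at h6
        rw [← hj.choose_spec, ← hj'.choose_spec, h3 (h5.trans h6.symm)]
      · beta_reduce
        rw [dif_pos hj, Option.elim_some, h4, hj.choose_spec,
          div_self (div_ne_zero (hy j) (hy i))]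
        exact un_one
    obtain ⟨W, hW, hW'⟩ := exists_val _ ψ
    obtain ⟨j, φ, hφ⟩ := exists_centre P W fun a => hW _ (Subalgebra.algebraMap_mem _ a)
    obtain ⟨s', i₀, h5⟩ := hP j φ
    have hn : ∀ x ∈ W.nonunits, ¬ Un (lo (P.A j) φ) x := fun x hx hu =>
      (W.inv_mem_nonunits_iff.1 (by rwa [inv_inv] : x⁻¹⁻¹ ∈ W.nonunits)).elim
        (inv_ne_zero hu.1) fun h6 => h6 (hφ _ hu.2.2)
    have hu : Un (lo (P.A j) φ) (y i / y i₀) := by
      let a : chart k y i := ⟨y i₀ / y i, div_mem_chart y i i₀⟩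
      have h6 := hW' (a - algebraMap k _ (ψ a)) (by simp)
      have h7 : y i / y i₀ * (y i₀ / y i - algebraMap k F (ψ a)) ∈ W.nonunits := by
        rw [ValuationSubring.mem_nonunits_iff] at h6 ⊢
        rw [map_mul]
        exact mul_lt_one_of_nonneg_of_lt_one_right
          ((W.valuation_le_one_iff _).2 (hφ _ (h5.dom i))) zero_le h6
      have h8 : y i / y i₀ * (y i₀ / y i - algebraMap k F (ψ a)) =
          1 - y i / y i₀ * algebraMap k F (ψ a) := by
        have := hy i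
        have := hy i₀
        field_simp
      rw [h8] at h7
      have h9 := un_add_van un_one (Van.neg' ⟨sub_mem (one_mem _) (mul_mem (h5.dom i)
        (Subalgebra.algebraMap_mem _ _)), hn _ h7⟩)
      rw [← sub_eq_add_neg, sub_sub_cancel] at h9
      exact Un.of_mul (h5.dom i) (Subalgebra.algebraMap_mem _ _) h9
    have hle : chart k y i ≤ lo (P.A j) φ := chart_le fun l => by
      rw [← div_div_div_cancel_right₀ (hy i₀), div_eq_mul_inv]
      exact mul_mem (h5.dom l) hu.2.2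
    exact ⟨j, φ, (h5.iso i ψ hS fun a => ⟨hle a.2, fun h6 => hn _ (hW' a h6)⟩).trans_le h1⟩
  · obtain ⟨s, i₀, h1⟩ := hP j φ
    have := P.finiteType j
    have := isNoetherianRing_lo (P.A j) φ
    have hu : Un O (y i / y i₀) := ⟨div_ne_zero (hy i) (hy i₀), hle (h1.dom i), by
      rw [inv_div]; exact h.le (div_mem_chart y i i₀)⟩
    refine zAt_of (h.of_forall hle fun a ha => ?_) ht h1.coords fun l => ?_
    · obtain ⟨e, he⟩ := exists_pow_mul_mem_chart hy i₀ i ha
      exact ⟨_, pow_mem (h1.dom i) e, hu.pow e, chart_le h1.dom he⟩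
    · obtain ⟨γ, h2⟩ := h1.mono (β l) ⟨l, rfl⟩
      refine exists_factor ht (hu.div (h2.mono hle)) (fun m => hle (h1.coords.mem m)) (β := γ) ?_
      have h3 : ∏ m, s m ^ γ m ≠ 0 :=
        Finset.prod_ne_zero_iff.2 fun m _ => pow_ne_zero _ (h1.coords.ne_zero m)
      have := hy i
      have := hy i₀
      have := hy (β l)
      field_simp

/-- **(R1)** for finitely many families of functions -/
theorem r1_fam [IsAlgClosed k] [CharZero k] [IsLocalRing O] [Algebra.FiniteType k A]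
    (hfr : IsFr A) (h : IsLoc A O) {c : ℕ} {t : Fin c → F} (ht : Coords O t)
    (𝒦 : Finset (Finset F)) (h1 : ∀ K ∈ 𝒦, (1 : F) ∈ K)
    (h0 : ∀ K ∈ 𝒦, ∀ g ∈ K, g ≠ 0 ∧ g ∈ O) :
    ∃ (P : PModel k F) (n : ℕ),
      (∀ (j : Fin (P.N + 1)) (φ : P.A j →ₐ[k] k), ∀ K ∈ 𝒦, ∃ g₀ ∈ K, ∀ g ∈ K,
        g / g₀ ∈ lo (P.A j) φ) ∧
      (∃ (j : Fin (P.N + 1)) (φ : P.A j →ₐ[k] k), lo (P.A j) φ ≤ O) ∧
      ∀ (j : Fin (P.N + 1)) (φ : P.A j →ₐ[k] k), lo (P.A j) φ ≤ O → ZAt O (lo (P.A j) φ) n t := by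
  classical
  obtain ⟨S, hS⟩ := (Subalgebra.fg_iff_finiteType A).2 inferInstance
  let K₀ : Finset F := insert 1 (S.erase 0 ∪ Finset.univ.image t)
  let G : Option 𝒦 → Finset F := fun a => a.elim K₀ Subtype.val
  have hG1 : ∀ a, (1 : F) ∈ G a := by
    rintro (_ | a)
    exacts [Finset.mem_insert_self _ _, h1 _ a.2]
  have hG0 : ∀ a, ∀ g ∈ G a, g ≠ 0 ∧ g ∈ O := by
    rintro (_ | a) g hg
    · rcases Finset.mem_insert.1 hg with rfl | hg
      · exact ⟨one_ne_zero, one_mem _⟩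
      rcases Finset.mem_union.1 hg with hg | hg
      · exact ⟨Finset.ne_of_mem_erase hg,
          h.le (hS ▸ Algebra.subset_adjoin (Finset.mem_of_mem_erase hg))⟩
      · obtain ⟨l, -, rfl⟩ := Finset.mem_image.1 hg
        exact ⟨ht.ne_zero l, ht.mem l⟩
    · exact h0 _ a.2 g hg
  let J : Type := ∀ a, G a
  let j₀ : J := fun a => ⟨1, hG1 a⟩
  have : Nonempty J := ⟨j₀⟩
  obtain ⟨N, hN⟩ := Nat.exists_eq_succ_of_ne_zero (Fintype.card_pos (α := J)).ne'
  let ε : J ≃ Fin (N + 1) := Fintype.equivFinOfCardEq hN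
  let Z : J → F := fun j => ∏ a, (j a : F)
  have hj : ∀ (j : J) a, (j a : F) ≠ 0 := fun j a => (hG0 a _ (j a).2).1
  have hZ : ∀ j, Z j ≠ 0 := fun j => Finset.prod_ne_zero_iff.2 fun a _ => hj j a
  have hup : ∀ (j : J) a (g : G a), Z (Function.update j a g) / Z j = g / j a := by
    intro j a g
    simp only [Z]
    rw [← Finset.mul_prod_erase _ _ (Finset.mem_univ a),
      ← Finset.mul_prod_erase _ (fun a => (j a : F)) (Finset.mem_univ a), Function.update_self,
      Finset.prod_congr rfl fun a' ha' => by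
        rw [Function.update_of_ne (Finset.ne_of_mem_erase ha')],
      mul_div_mul_right _ _ (Finset.prod_ne_zero_iff.2 fun a _ => hj j a)]
  let y : Fin (N + 1) → F := fun i => Z (ε.symm i)
  have hy : ∀ j j', y (ε j) / y (ε j') = Z j / Z j' := fun j j' => by simp [y]
  have hA : A ≤ chart k y (ε j₀) := by
    rw [← hS]
    refine Algebra.adjoin_le fun g hg => ?_
    by_cases hg0 : g = 0
    · exact hg0 ▸ zero_mem _
    have h2 := div_mem_chart (k := k) y (ε j₀) (ε (Function.update j₀ none ⟨g,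
      Finset.mem_insert_of_mem (Finset.mem_union_left _ (Finset.mem_erase.2 ⟨hg0, hg⟩))⟩))
    rwa [hy, hup, div_one] at h2
  have hO : chart k y (ε j₀) ≤ O := chart_le fun i => by
    have h2 : y (ε j₀) = 1 := by simp [y, Z, j₀]
    rw [h2, div_one]
    exact prod_mem fun a _ => (hG0 a _ (ε.symm i a).2).2
  let β : Fin c → Fin (N + 1) := fun l => ε (Function.update j₀ none ⟨t l,
    Finset.mem_insert_of_mem (Finset.mem_union_right _ (Finset.mem_image_of_mem t
      (Finset.mem_univ l)))⟩)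
  have hβ : (fun l => y (β l) / y (ε j₀)) = t := funext fun l => by rw [hy, hup, div_one]
  obtain ⟨P, n, h2, h3, h4⟩ := r1_model (fun i => hZ _) (isFr_mono hfr hA) (h.mono hA hO) β
    (hβ ▸ ht)
  refine ⟨P, n, fun j φ K hK => ?_, h3, hβ ▸ h4⟩
  obtain ⟨i₀, h5⟩ := h2 j φ
  obtain ⟨j', rfl⟩ := ε.surjective i₀
  refine ⟨_, (j' (some ⟨K, hK⟩)).2, fun g hg => ?_⟩
  have h6 := h5 (ε (Function.update j' (some ⟨K, hK⟩) ⟨g, hg⟩))
  rwa [hy, hup] at h6

end Crest.Agent.X262.R139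
end
end

-- ▼ part X262/R139/Main

/-!
# Row 262, R1 + MODEL (helper39), part 4: the model

* `cen_of_lt`  : a valuation ring whose centre has height one in a factorial ring;
* `SmZ.cen`, `SmZ.prm`, `SmZ.exists_coords` : consequences of `SmZ`;
* `model_gen`  : any codimension, extra families of functions;
* `model2 : Model2Stmt` : codimension two; `remodel`.
-/

set_option autoImplicit false

noncomputable section

namespace Crest.Agent.X262.R139

open Crest.Agent.X277 Crest.Agent.X277.Lef Crest.Agent.X277.BD Crest.Agent.X277.BD.Br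
open Crest.Agent.X277.Pst (Prm Dvs loc)
open Crest.Agent.X277.AN.G1
open Crest.Agent.X277.Res.Out (Un Van Coords IsFr lo un_one)
open Crest.Agent.X277.Res.Out.Lb (Cen PE vt)
open Crest.Agent.X262.Qt (SmZ Dom)
open scoped KaehlerDifferential

section Gen

variable {k F : Type} [Field k] [Field F] [Algebra k F] {L : Subalgebra k F}

theorem pe_of_prime [IsNoetherianRing L] (hfr : IsFr L) {π : L} (hp : Prime π) : PE L (π : F) := by
  have h0 : (π : F) ≠ 0 := fun h => hp.ne_zero (Subtype.ext h)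
  refine ⟨π.2, h0, fun h1 => hp.not_isUnit ((Res.Out.un_iff_isUnit π).1 ⟨h0, π.2, ?_⟩), ?_, ?_, hfr⟩
  · rwa [one_div] at h1
  · intro a ha b hb hab
    have h1 : π ∣ (⟨a, ha⟩ : L) * ⟨b, hb⟩ := (Res.Out.Lb.dvd_iff h0).2 hab
    exact (hp.dvd_or_dvd h1).imp (Res.Out.Lb.dvd_iff h0).1 (Res.Out.Lb.dvd_iff h0).1
  · intro a ha ha0
    obtain ⟨m, c, hc, hac⟩ := WfDvdMonoid.max_power_factor (a₀ := (⟨a, ha⟩ : L))
      (fun h1 => ha0 (congrArg Subtype.val h1)) hp.irreducible
    have h1 : a / π ^ m = c := by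
      have h2 : a = π ^ m * c := congrArg Subtype.val hac
      rw [h2, mul_div_cancel_left₀ _ (pow_ne_zero _ h0)]
    refine ⟨m, by rw [h1]; exact c.2, fun h2 => hc ((Res.Out.Lb.dvd_iff h0).2 ?_)⟩
    rw [← h1]
    exact h2

/-- a valuation ring whose centre has height one -/
theorem cen_of_lt [IsNoetherianRing L] [UniqueFactorizationMonoid L] (hfr : IsFr L)
    {W : ValuationSubring F} (hW : ∀ x ∈ L, x ∈ W) (h0 : W ≠ ⊤) {s : Set L} (hs : s.Finite)
    (h2 : s.ncard ≤ 2) [hJ : (Ideal.span s).IsPrime] (h : Res.Out.Lb.ctr W L < Ideal.span s) :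
    Cen W L := by
  have hp := Res.Out.Lb.isPrime_ctr hW
  have h3 : Res.Out.Lb.ctr W L ≠ ⊥ := fun h3 => h0 (by
    refine eq_top_iff.2 fun x _ => ?_
    obtain ⟨a, ha, c, hc, hc0, rfl⟩ := hfr x
    refine Res.Out.Lb.div_mem_of_le hc0 ?_
    rw [Res.Out.Lb.val_eq_one_of_notMem hW (a := ⟨c, hc⟩) fun h4 =>
      hc0 (Subtype.ext_iff.1 (Ideal.mem_bot.1 (h3 ▸ h4 : (⟨c, hc⟩ : L) ∈ ⊥)))]
    exact Res.Out.Lb.val_le (hW a ha))
  obtain ⟨π, h4, h5⟩ := hp.exists_mem_prime_of_ne_bot h3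
  have h6 := (Ideal.span_singleton_prime h5.ne_zero).2 h5
  have h7 : Ideal.span {π} = Res.Out.Lb.ctr W L := by
    by_contra h7
    have h8 := Ideal.height_add_one_le_of_lt_of_isPrime
      (lt_of_le_of_ne ((Ideal.span_singleton_le_iff_mem _).2 h4) h7)
    have h9 := Ideal.height_add_one_le_of_lt_of_isPrime (I := ⊥) (J := Ideal.span {π})
      (bot_lt_iff_ne_bot.2 fun h9 => h5.ne_zero (Ideal.span_singleton_eq_bot.1 h9))
    have h10 := Ideal.height_add_one_le_of_lt_of_isPrime h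
    have h11 := Ideal.height_le_card_of_mem_minimalPrimes_span (p := Ideal.span s) hs
      (by rw [Ideal.minimalPrimes_eq_subsingleton_self]; rfl)
    have h12 : (0 : ℕ∞) + 1 + 1 + 1 ≤ (2 : ℕ) := by
      refine le_trans ?_ (h11.trans (by exact_mod_cast h2))
      refine le_trans ?_ h10
      refine add_le_add_left (le_trans ?_ h8) 1
      exact add_le_add_left (le_trans (add_le_add_left zero_le 1) h9) 1
    norm_num at h12
  have hE := pe_of_prime hfr h5
  have h8 : vt hE = W := by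
    refine hE.unif.eq_of_le (hE.cen.le_of_ctr hW ?_) hE.ne (hE.cen.le _ π.2) fun h8 => ?_
    · rw [← h7, Ideal.span_singleton_le_iff_mem]
      exact (Res.Out.Lb.mem_ctr hE.cen.le).2 hE.val_lt
    · exact ((Res.Out.Lb.mem_ctr hW).1 h4).ne (Res.Out.Lb.val_eq_one hE.ne (hW _ π.2) h8)
  exact h8 ▸ hE.cen

end Gen

variable {F : Type} [Field F] [Algebra ℂ F] {P : PModel ℂ F} {A O : Subalgebra ℂ F} {n c : ℕ}

theorem card_eq (b : Module.Basis (Fin n) F Ω[F⁄ℂ]) {x : Pts P} {m : ℕ} {s : Fin m → F}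
    (h : Coords (lp x).O s) : m = n := by
  have h1 := Module.finrank_eq_card_basis (Module.Basis.mk (Res.Log.linearIndependent_D h)
    (Res.Log.span_D (Res.Log.crd_of_coords h)).ge)
  rw [Module.finrank_eq_card_basis b, Fintype.card_fin, Fintype.card_fin] at h1
  exact h1.symm

theorem exists_lp (j : Fin (P.N + 1)) (φ : P.A j →ₐ[ℂ] ℂ) :
    ∃ x : Pts P, (lp x).O = lo (P.A j) φ := by
  obtain ⟨x, hx, h⟩ := AN.G1.exists_pt j φ
  refine ⟨x, ?_⟩
  rw [Res.Log.lp_O hx]
  congr 1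
  exact AlgHom.ext fun a => (ev_chr hx a).symm.trans (h a)

theorem exists_lo (x : Pts P) : ∃ (j : Fin (P.N + 1)) (φ : P.A j →ₐ[ℂ] ℂ),
    (lp x).O = lo (P.A j) φ := by
  obtain ⟨j, hj⟩ := exists_pat x
  exact ⟨j, _, Res.Log.lp_O hj⟩

instance (x : Pts P) : IsLocalRing (lp x).O := by
  obtain ⟨j, φ, h⟩ := exists_lo x
  rw [h]
  infer_instance

theorem isLoc_lp {x : Pts P} {j : Fin (P.N + 1)} (hx : x ∈ pat P j) : IsLoc (P.A j) (lp x).O :=
  Res.Log.lp_O hx ▸ isLoc_lo _

namespace SmZ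

variable (h : SmZ P O n c)
include h

theorem isLoc {x : Pts P} (hx : (lp x).O ≤ O) : IsLoc (lp x).O O := ⟨hx, h.loc x hx⟩

theorem isLocalRing : IsLocalRing O := by
  obtain ⟨x, hx⟩ := h.ne
  obtain ⟨s, σ, -, -, h1⟩ := h.crd x hx
  refine IsLocalRing.of_nonunits_add fun a b ha hb => ?_
  rw [← Res.Out.van_iff_nonunit] at ha hb ⊢
  obtain ⟨e, h2, h3, h4⟩ := (isLoc h hx).exists_den (Set.toFinite {(a : F), (b : F)})
    (by rintro _ (rfl | rfl); exacts [a.2, b.2])
  have h5 := h4 a (by simp)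
  have h6 := h4 b (by simp)
  have h7 := (h1 _ (add_mem h5 h6)).2 (add_mem ((h1 _ h5).1 (Van.mul_left h3.2.1 ha))
    ((h1 _ h6).1 (Van.mul_left h3.2.1 hb)))
  have h8 := Van.mul_left h3.2.2 h7
  rwa [← mul_add, ← mul_assoc, inv_mul_cancel₀ h3.1, one_mul] at h8

theorem exists_chart : ∃ j, IsLoc (P.A j) O := by
  obtain ⟨x, hx⟩ := h.ne
  obtain ⟨j, hj⟩ := exists_pat x
  exact ⟨j, (isLoc_lp hj).trans (isLoc h hx)⟩


/-- a localisation of `O` which is a divisorial valuation ring is a prime of the model -/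
theorem prm {W : RZ ℂ F} (hW : Dvs W) (hc : Cen W.1 O) : Prm (oP P) W := by
  obtain ⟨x, hx⟩ := h.ne
  obtain ⟨y, hy⟩ := hW.res
  have h1 : ∀ a ∈ (lp x).O, a ∈ loc (oP P) W :=
    fun a ha => Geo.lp_le_loc (fun f hf => hc.le f (hx hf)) ha
  have h2 : ∀ a ∈ O, a ∈ loc (oP P) W := fun a ha => by
    obtain ⟨e, h3, h4, h5⟩ := h.loc x hx a ha
    have h6 := mul_mem (Neg.inv_mem_loc (h1 e h3) (Res.Out.Lb.val_un hc.le h4)) (h1 _ h5)
    rwa [inv_mul_cancel_left₀ h4.1] at h6
  refine ⟨hW.ne_top, y, fun i => ?_, hy⟩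
  obtain ⟨e, h3, h4, h5⟩ := hc.loc _ (hy.1 i)
  have h6 := mul_mem (Neg.inv_mem_loc (h2 e h3) h4) (h2 _ h5)
  rwa [inv_mul_cancel_left₀ (Qt.ne_of_val h4)] at h6

/-- in codimension at most two a valuation ring over `O` dominates `O` or is a localisation -/
theorem cen (hc : c ≤ 2) {W : ValuationSubring F} (h0 : W ≠ ⊤) (hW : ∀ f ∈ O, f ∈ W)
    (hd : ¬ Dom W O) : Cen W O := by
  obtain ⟨x, hx⟩ := h.ne
  obtain ⟨s, σ, h1, -, h3⟩ := h.crd x hx
  have hL : ∀ f ∈ (lp x).O, f ∈ W := fun f hf => hW f (hx hf)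
  have := isPrime_span h1 (Set.range σ)
  refine (cen_of_lt (frac_lp x) hL h0 (s := h1.el '' Set.range σ) (Set.toFinite _) ?_
    (lt_of_le_of_ne (fun a ha => ?_) fun h4 => hd ⟨hW, fun f hf h5 => ?_⟩)).mono hx hW
  · rw [← Set.range_comp, ← Set.image_univ]
    exact (Set.ncard_image_le (Set.toFinite _)).trans (by simpa [Set.ncard_univ] using hc)
  · exact (mem_span_iff h1 σ a).2 ((h3 _ a.2).1 ⟨hx a.2, fun hu =>
      ((Res.Out.Lb.mem_ctr hL).1 ha).ne (Res.Out.Lb.val_un hW hu)⟩)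
  · obtain ⟨e, h6, h7, h8⟩ := h.loc x hx f hf
    have h9 : Un O (e * f) := un_of_not_van (hx h8) fun hv => by
      have h10 := (mem_span_iff h1 σ ⟨_, h8⟩).2 ((h3 _ h8).1 hv)
      rw [← h4, Res.Out.Lb.mem_ctr hL] at h10
      change W.valuation (e * f) < 1 at h10
      rw [map_mul, Res.Out.Lb.val_un hW h7, h5, one_mul] at h10
      exact lt_irrefl _ h10
    exact (Un.of_mul hf h7.2.1 (by rwa [mul_comm])).2.2

end SmZ

/-- the family `K` is generated by one member at every point -/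
def GnK (P : PModel ℂ F) (K : Finset F) : Prop :=
  ∀ x : Pts P, ∃ g₀ ∈ K, ∀ g ∈ K, g / g₀ ∈ (lp x).O

theorem GnK.gn {K : Finset F} (h : GnK P K) (h0 : ∀ g ∈ K, g ≠ 0) {ι : Type*} {s : ι → F} {u : F}
    (hu : u ≠ 0) (h1 : ∀ g ∈ K, ∃ i, s i / u = g) (h2 : ∀ i, s i / u ∈ K) : Cns.Gn P s := fun x => by
  obtain ⟨g, h3, h4⟩ := h x
  obtain ⟨i, rfl⟩ := h1 g h3
  refine ⟨i, fun h5 => h0 _ h3 (by rw [h5, zero_div]), fun l => ?_⟩
  have h5 := h4 _ (h2 l)
  rwa [div_div_div_cancel_right₀ hu] at h5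

/-- a family inside `O` which makes `W` a prime divisor -/
theorem exists_fam [Algebra.EssFiniteType ℂ F] (hfr : IsFr O) {W : RZ ℂ F} (hW : Dvs W) {f : F} (hf : f ∈ O) (hf' : f ∉ W.1) :
    ∃ K : Finset F, (1 : F) ∈ K ∧ (∀ g ∈ K, g ≠ 0 ∧ g ∈ O) ∧
      ∀ Q : PModel ℂ F, GnK Q K → Prm (oP Q) W := by
  classical
  obtain ⟨y, hy⟩ := hW.res
  have hy1 : ∀ i, W.v (y i) = 1 := fun i => by
    simpa using hy.2 (MvPolynomial.X i) (MvPolynomial.X_ne_zero i)
  choose a ha e he he0 hye using fun i => hfr (y i)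
  have hb : ∏ i, e i ≠ 0 := Finset.prod_ne_zero_iff.2 fun i _ => he0 i
  have hf0 : f ≠ 0 := fun h0 => hf' (h0 ▸ zero_mem _)
  obtain ⟨N, hN⟩ := Rgr.arch hW (W.v (∏ i, e i))⁻¹ (W.v f) (not_le.1 fun h => hf' (RZ.le_one_iff.1 h))
  set u := (∏ i, e i) * f ^ N with hu
  have hu0 : u ≠ 0 := mul_ne_zero hb (pow_ne_zero _ hf0)
  have hu1 : 1 ≤ W.v u := by
    rw [hu, map_mul, map_pow, ← inv_le_iff_one_le_mul₀' (RZ.pos hb)]
    exact hN
  have huO : u ∈ O := mul_mem (prod_mem fun i _ => he i) (pow_mem hf N)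
  have hyO : ∀ i, y i * u ∈ O := fun i => by
    rw [hu, ← Finset.mul_prod_erase _ _ (Finset.mem_univ i), hye, ← mul_assoc, ← mul_assoc,
      div_mul_cancel₀ _ (he0 i)]
    exact mul_mem (mul_mem (ha i) (prod_mem fun j _ => he j)) (pow_mem hf N)
  refine ⟨insert 1 (insert u (Finset.univ.image fun i => y i * u)), Finset.mem_insert_self _ _,
    fun g hg => ?_, fun Q hQ => ⟨hW.ne_top, y, fun i => ?_, hy⟩⟩
  · simp only [Finset.mem_insert, Finset.mem_image, Finset.mem_univ, true_and] at hg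
    rcases hg with rfl | rfl | ⟨i, rfl⟩
    exacts [⟨one_ne_zero, one_mem _⟩, ⟨hu0, huO⟩,
      ⟨mul_ne_zero (Qt.ne_of_val (hy1 i)) hu0, hyO i⟩]
  · obtain ⟨x, hx⟩ := Geo.exists_ov (P := Q) W
    obtain ⟨g, hg, h1⟩ := hQ x
    have h2 := h1 u (by simp)
    have h3 : g ≠ 0 ∧ W.v g ≤ W.v u := by
      simp only [Finset.mem_insert, Finset.mem_image, Finset.mem_univ, true_and] at hg
      rcases hg with rfl | rfl | ⟨i, rfl⟩
      exacts [⟨one_ne_zero, by rwa [map_one]⟩, ⟨hu0, le_rfl⟩,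
        ⟨mul_ne_zero (Qt.ne_of_val (hy1 i)) hu0, by rw [map_mul, hy1, one_mul]⟩]
    have h4 : W.v (u / g) = 1 := by
      rw [map_div₀, div_eq_one_iff_eq (RZ.pos h3.1).ne']
      exact le_antisymm ((RZ.le_iff h3.1).2 (hx _ h2)) h3.2
    have h5 := mul_mem (Neg.inv_mem_loc (Geo.lp_le_loc hx h2) h4)
      (Geo.lp_le_loc hx (h1 (y i * u) (Finset.mem_insert_of_mem (Finset.mem_insert_of_mem
        (Finset.mem_image.2 ⟨i, Finset.mem_univ _, rfl⟩)))))
    have h6 := h3.1
    rwa [show (u / g)⁻¹ * (y i * u / g) = y i by field_simp] at h5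

/-- **MODEL + (R1)**, any codimension -/
theorem model_gen (b : Module.Basis (Fin n) F Ω[F⁄ℂ]) (P : PModel ℂ F) {i : Fin (P.N + 1)}
    [IsLocalRing O] [Algebra.FiniteType ℂ A] (hP : P.A i ≤ A) (h : IsLoc A O) {t : Fin c → F}
    (ht : Coords O t) (T : Finset (RZ ℂ F))
    (hT : ∀ W ∈ T, Dvs W ∧ ((∃ f ∈ O, f ∉ W.1) ∨ Cen W.1 O ∨ (c ≤ 2 ∧ ¬ Dom W.1 O)))
    (𝒦 : Finset (Finset F)) (h1 : ∀ K ∈ 𝒦, (1 : F) ∈ K)
    (h0 : ∀ K ∈ 𝒦, ∀ g ∈ K, g ≠ 0 ∧ g ∈ O) :
    ∃ P' : PModel ℂ F, oP P ∈ On P' ∧ SmZ P' O n c ∧ (∀ W ∈ T, Prm (oP P') W) ∧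
      (∀ K ∈ 𝒦, GnK P' K) ∧ ∀ x : Pts P', (lp x).O ≤ O → ZAt O (lp x).O n t := by
  classical
  have hfr : IsFr A := isFr_mono (P.frac' i) hP
  have := Geo.eft P
  choose G hG1 hG0 hG using fun (W : T) (hW : ∃ f ∈ O, f ∉ W.1.1) =>
    exists_fam (isFr_mono hfr h.le) (hT W.1 W.2).1 hW.choose_spec.1 hW.choose_spec.2
  let K₀ : Finset F := Finset.univ.image fun j => P.y j / P.y i
  let G' : T → Finset F := fun W => if hW : ∃ f ∈ O, f ∉ W.1.1 then G W hW else {1}
  have hK₀ : ∀ g ∈ K₀, g ≠ 0 ∧ g ∈ O := fun g hg => by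
    obtain ⟨j, -, rfl⟩ := Finset.mem_image.1 hg
    exact ⟨div_ne_zero (P.y_ne j) (P.y_ne i), h.le (hP (div_mem_chart P.y i j))⟩
  have hG' : ∀ W, (1 : F) ∈ G' W ∧ ∀ g ∈ G' W, g ≠ 0 ∧ g ∈ O := fun W => by
    simp only [G']
    split_ifs with hW
    · exact ⟨hG1 W hW, hG0 W hW⟩
    · simp
  have hK : ∀ K ∈ insert K₀ (𝒦 ∪ Finset.univ.image G'), (1 : F) ∈ K ∧ ∀ g ∈ K, g ≠ 0 ∧ g ∈ O := by
    intro K hK
    simp only [Finset.mem_insert, Finset.mem_union, Finset.mem_image, Finset.mem_univ,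
      true_and] at hK
    rcases hK with rfl | hK | ⟨W, rfl⟩
    exacts [⟨Finset.mem_image.2 ⟨i, Finset.mem_univ _, div_self (P.y_ne i)⟩, hK₀⟩,
      ⟨h1 K hK, h0 K hK⟩, hG' W]
  obtain ⟨P', m, h2, ⟨j, φ, h3⟩, h4⟩ := r1_fam hfr h ht _ (fun K h => (hK K h).1)
    fun K h => (hK K h).2
  have h5 : ∀ K ∈ insert K₀ (𝒦 ∪ Finset.univ.image G'), GnK P' K := fun K hK x => by
    obtain ⟨j, φ, hx⟩ := exists_lo x
    exact hx ▸ h2 j φ K hK
  have h6 : ∀ x : Pts P', (lp x).O ≤ O → ZAt O (lp x).O m t := fun x hx => by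
    obtain ⟨j, φ, hx'⟩ := exists_lo x
    rw [hx'] at hx ⊢
    exact h4 j φ hx
  obtain ⟨x₀, hx₀⟩ := exists_lp j φ
  rw [← hx₀] at h3
  obtain rfl : m = n := by
    obtain ⟨s, -, hs, -⟩ := (h6 x₀ h3).crd
    exact card_eq b hs
  have hZ : SmZ P' O m c := ⟨⟨x₀, h3⟩, fun x hx => (h6 x hx).loc.loc, fun x hx => by
    obtain ⟨s, σ, h7, h8, -, h9⟩ := (h6 x hx).crd
    exact ⟨s, σ, h7, h8, h9⟩⟩
  refine ⟨P', mxf_mem ((h5 K₀ (by simp)).gn (fun g hg => (hK₀ g hg).1) (P.y_ne i)
    (fun g hg => by simpa [K₀] using hg) fun l => by simp [K₀]), hZ, fun W hW => ?_,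
    fun K hK => h5 K (by simp [hK]), h6⟩
  by_cases h7 : ∃ f ∈ O, f ∉ W.1
  · refine hG ⟨W, hW⟩ h7 P' ?_
    have h8 := h5 (G' ⟨W, hW⟩) (by simp)
    simpa only [G', dif_pos h7] using h8
  · rcases (hT W hW).2 with h8 | h8 | h8
    · exact absurd h8 h7
    · exact SmZ.prm hZ (hT W hW).1 h8
    · push Not at h7
      exact SmZ.prm hZ (hT W hW).1 (SmZ.cen hZ h8.1 (hT W hW).1.ne_top h7 h8.2)

theorem fib_mem {t : Fin 2 → F} (ht : Coords O t) {P' : PModel ℂ F}
    (h : GnK P' (by classical exact {1, t 0, t 1})) : mxf ℂ ![1, t 0, t 1] ∈ On P' := by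
  classical
  refine mxf_mem (h.gn (fun g hg => ?_) one_ne_zero (fun g hg => ?_) fun l => ?_)
  · simp only [Finset.mem_insert, Finset.mem_singleton] at hg
    rcases hg with rfl | rfl | rfl
    exacts [one_ne_zero, ht.ne_zero 0, ht.ne_zero 1]
  · simp only [Finset.mem_insert, Finset.mem_singleton] at hg
    rcases hg with rfl | rfl | rfl
    exacts [⟨0, by simp⟩, ⟨1, by simp⟩, ⟨2, by simp⟩]
  · fin_cases l <;> simp

theorem model_two (b : Module.Basis (Fin n) F Ω[F⁄ℂ]) (P : PModel ℂ F) {i : Fin (P.N + 1)}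
    [IsLocalRing O] [Algebra.FiniteType ℂ A] (hP : P.A i ≤ A) (h : IsLoc A O) {t : Fin 2 → F}
    (ht : Coords O t) (T : Finset (RZ ℂ F)) (hT : ∀ W ∈ T, Dvs W ∧ ¬ Dom W.1 O) :
    ∃ P' : PModel ℂ F, oP P ∈ On P' ∧ SmZ P' O n 2 ∧ (∀ W ∈ T, Prm (oP P') W) ∧
      mxf ℂ ![1, t 0, t 1] ∈ On P' := by
  classical
  obtain ⟨P', h1, h2, h3, h4, -⟩ := model_gen b P hP h ht T
    (fun W hW => ⟨(hT W hW).1, Or.inr (Or.inr ⟨le_rfl, (hT W hW).2⟩)⟩) {{1, t 0, t 1}}
    (by simp) (by
      simp only [Finset.mem_singleton, forall_eq, Finset.mem_insert]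
      rintro g (rfl | rfl | rfl)
      exacts [⟨one_ne_zero, one_mem _⟩, ⟨ht.ne_zero 0, ht.mem 0⟩, ⟨ht.ne_zero 1, ht.mem 1⟩])
  exact ⟨P', h1, h2, h3, fib_mem ht (h4 _ (Finset.mem_singleton_self _))⟩

theorem isLoc_lv {V : ValuationSubring F} (h : ∀ x ∈ A, x ∈ V) : IsLoc A (Qt.lv A V) :=
  ⟨Qt.le_lv _ _, fun _ ⟨e, h1, h2, h3⟩ =>
    ⟨e, h1, ((Qt.dom_lv h).un_iff (Qt.le_lv _ _ h1)).2 h2, h3⟩⟩

/-- a smooth model with the local ring `O` of dimension two -/
def Model2Stmt : Prop :=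
  ∀ (F : Type) [Field F] [Algebra ℂ F] (n : ℕ) (_ : Module.Basis (Fin n) F Ω[F⁄ℂ])
    (P : PModel ℂ F) (V : RZ ℂ F) (i : Fin (P.N + 1)) (U : Finset F) (t : Fin 2 → F)
    (T : Finset (RZ ℂ F)), (∀ x ∈ P.A i, x ∈ V.1) → (∀ u ∈ U, u ∈ V.1) →
    Coords (Qt.ring P i U V) t → (∀ W ∈ T, Dvs W ∧ ¬ Dom W.1 (Qt.ring P i U V)) →
    ∃ P' : PModel ℂ F, oP P ∈ On P' ∧ SmZ P' (Qt.ring P i U V) n 2 ∧ (∀ W ∈ T, Prm (oP P') W) ∧
      mxf ℂ ![1, t 0, t 1] ∈ On P'

theorem model2 : Model2Stmt := by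
  intro F _ _ n b P V i U t T h1 h2 ht hT
  have h3 := Qt.adj_le_val (U := (U : Set F)) h1 h2
  have := P.finiteType i
  have := Qt.finiteType_adj (A := P.A i) U.finite_toSet
  have : IsLocalRing (Qt.ring P i U V) := (Qt.dom_lv h3).isLocalRing
  exact model_two (O := Qt.ring P i U V) b P (Qt.le_adj _ _) (isLoc_lv h3) ht T hT


end Crest.Agent.X262.R139
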